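import Vale.Agent.P343.H741.Iface

/-!
Row A: the algebra of crossings.
-/

namespace Vale.Agent.P343.H741

open Relation

variable {Q : Type}

theorem map_range_lch (A M B : List (NB Q)) :
    (List.range' A.length M.length).map (lch (A ++ M ++ B)) = M := by
  apply List.ext_getElem
  · simp
  · intro i h1 h2
    have h3 : i < M.length := h2
    simp [lch, List.getElem?_append, h3]

theorem seg_lch (A M B : List (NB Q)) :
    seg (lch (A ++ M ++ B)) A.length (A.length + M.length) = M.prod := by
  rw [seg_list, map_range_lch]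

/-- A run through the chain of a list computes the product. -/
theorem prod_iff (L : List (NB Q)) (c c' : Bool × Q) :
    L.prod c c' ↔ Rn (lch L) 0 L.length (ent 0 L.length c.1, c) (ext 0 L.length c'.1, c') := by
  have h := seg_lch [] L []
  simp only [List.nil_append, List.append_nil, List.length_nil, Nat.zero_add] at h
  rw [← h]
  rfl

/-- Crossings in the chain of a list. -/
theorem cr_iff (L1 M R : List (NB Q)) (h1 : L1 ≠ []) (h2 : M ≠ []) (h3 : R ≠ []) (d : Bool)
    (x y : Q) :
    Cr L1.prod M.prod R.prod d x y ↔
      Rn (lch (L1 ++ M ++ R)) 0 (L1.length + M.length + R.length)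
        (ent L1.length (L1.length + M.length) d, (d, x))
        (ext L1.length (L1.length + M.length) d, (d, y)) := by
  have p1 : 0 < L1.length := List.length_pos_iff.2 h1
  have p2 : 0 < M.length := List.length_pos_iff.2 h2
  have p3 : 0 < R.length := List.length_pos_iff.2 h3
  let φ : ℕ → ℕ := fun k => if k = 0 then 0 else if k = 1 then L1.length else
    if k = 2 then L1.length + M.length else L1.length + M.length + R.length + (k - 3)
  have hφ : StrictMono φ := by
    apply strictMono_nat_of_lt_succ
    intro k
    rcases k with _ | _ | _ | k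
    · exact p1
    · show L1.length < L1.length + M.length
      omega
    · show L1.length + M.length < L1.length + M.length + R.length + (3 - 3)
      omega
    · show L1.length + M.length + R.length + (k + 1 + 1 + 1 - 3) <
        L1.length + M.length + R.length + (k + 1 + 1 + 1 + 1 - 3)
      omega
  have key := contract (lch (L1 ++ M ++ R)) hφ (lo := 0) (hi := 3) (k := ent 1 2 d)
    (k' := ext 1 2 d) (c := (d, x)) (c' := (d, y))
  have e1 : φ (ent 1 2 d) = ent L1.length (L1.length + M.length) d := by cases d <;> rfl
  have e2 : φ (ext 1 2 d) = ext L1.length (L1.length + M.length) d := by cases d <;> rfl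
  rw [e1, e2] at key
  have e3 : φ 3 = L1.length + M.length + R.length := rfl
  have e0 : φ 0 = 0 := rfl
  rw [e3, e0] at key
  rw [← key]
  apply Rn_congr
  intro i _ hi
  have h6 : i = 0 ∨ i = 1 ∨ i = 2 := by omega
  rcases h6 with rfl | rfl | rfl
  · show L1.prod = seg (lch (L1 ++ M ++ R)) 0 L1.length
    have h := seg_lch [] L1 (M ++ R)
    simp only [List.nil_append, List.length_nil, Nat.zero_add] at h
    rw [List.append_assoc]
    exact h.symm
  · show M.prod = seg (lch (L1 ++ M ++ R)) L1.length (L1.length + M.length)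
    exact (seg_lch L1 M R).symm
  · show R.prod = seg (lch (L1 ++ M ++ R)) (L1.length + M.length)
      (L1.length + M.length + R.length + (3 - 3))
    have h := seg_lch (L1 ++ M) R []
    simp only [List.append_nil, List.length_append] at h
    exact h.symm

theorem cross_right {b : ℕ → NB Q} {lo hi p : ℕ} {x y : ℕ × (Bool × Q)} (h : Rn b lo hi x y)
    (h1 : x.1 ≤ p) (h2 : p < y.1) :
    ∃ q q', Rn b lo hi x (p, (false, q)) ∧ b p (false, q) (false, q') ∧
      Rn b lo hi (p + 1, (false, q')) y ∧ lo ≤ p ∧ p < hi := by
  induction h with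
  | refl => omega
  | @tail z y h3 h4 ih =>
    by_cases h5 : p < z.1
    · obtain ⟨q, q', h6, h7, h8, h9⟩ := ih h5
      exact ⟨q, q', h6, h7, h8.tail h4, h9⟩
    · cases h4 with
      | mk i c c' h6 h7 h8 =>
        obtain ⟨d, q⟩ := c
        obtain ⟨d', q'⟩ := c'
        cases d
        · cases d'
          · simp only [ent_false, ext_false] at h5 h2 h3
            have e1 : i = p := by omega
            subst e1
            exact ⟨q, q', h3, h8, ReflTransGen.refl, h6, h7⟩
          · simp only [ent_false, ext_true] at h5 h2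
            omega
        · cases d'
          · simp only [ent_true, ext_false] at h5 h2
            omega
          · simp only [ent_true, ext_true] at h5 h2
            omega

theorem cross_left {b : ℕ → NB Q} {lo hi p : ℕ} {x y : ℕ × (Bool × Q)} (h : Rn b lo hi x y)
    (h1 : p < x.1) (h2 : y.1 ≤ p) :
    ∃ q q', Rn b lo hi x (p + 1, (true, q)) ∧ b p (true, q) (true, q') ∧
      Rn b lo hi (p, (true, q')) y ∧ lo ≤ p ∧ p < hi := by
  induction h with
  | refl => omega
  | @tail z y h3 h4 ih =>
    by_cases h5 : z.1 ≤ p
    · obtain ⟨q, q', h6, h7, h8, h9⟩ := ih h5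
      exact ⟨q, q', h6, h7, h8.tail h4, h9⟩
    · cases h4 with
      | mk i c c' h6 h7 h8 =>
        obtain ⟨d, q⟩ := c
        obtain ⟨d', q'⟩ := c'
        cases d
        · cases d'
          · simp only [ent_false, ext_false] at h5 h2
            omega
          · simp only [ent_false, ext_true] at h5 h2
            omega
        · cases d'
          · simp only [ent_true, ext_false] at h5 h2
            omega
          · simp only [ent_true, ext_true] at h5 h2 h3
            have e1 : i = p := by omega
            subst e1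
            exact ⟨q, q', h3, h8, ReflTransGen.refl, h6, h7⟩

theorem cr_mono {l l' m m' r r' : NB Q} {d : Bool} {x y : Q}
    (hl : ∀ q q', l (true, q) (false, q') → l' (true, q) (false, q'))
    (hr : ∀ q q', r (false, q) (true, q') → r' (false, q) (true, q'))
    (hm : ∀ c c', m c c' → m' c c') (h : Cr l m r d x y) : Cr l' m' r' d x y := by
  have key : ∀ z, Rn (ch3 l m r) 0 3 (ent 1 2 d, (d, x)) z →
      ((z.1 = 0 ∧ z.2.1 = true) ∨ (z.1 = 3 ∧ z.2.1 = false)) ∨
      ((z.1 = 1 ∨ z.1 = 2) ∧ Rn (ch3 l' m' r') 0 3 (ent 1 2 d, (d, x)) z) := by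
    intro z h
    induction h with
    | refl =>
      right
      refine ⟨?_, ReflTransGen.refl⟩
      cases d
      · exact Or.inl rfl
      · exact Or.inr rfl
    | tail _ h2 ih =>
      cases h2 with
      | mk i c c' h3 h4 h5 =>
        obtain ⟨δ, q⟩ := c
        obtain ⟨δ', q'⟩ := c'
        have h6 : i = 0 ∨ i = 1 ∨ i = 2 := by omega
        rcases ih with ih | ⟨ih, ih2⟩
        · exfalso
          rcases h6 with rfl | rfl | rfl <;> cases δ <;> simp at ih
        · rcases h6 with rfl | rfl | rfl
          · cases δ
            · simp at ih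
            · cases δ'
              · right
                refine ⟨Or.inl rfl, ih2.tail ?_⟩
                exact St.mk 0 (true, q) (false, q') (by omega) (by omega) (hl q q' h5)
              · exact Or.inl (Or.inl ⟨rfl, rfl⟩)
          · right
            refine ⟨?_, ih2.tail ?_⟩
            · cases δ'
              · exact Or.inr rfl
              · exact Or.inl rfl
            · exact St.mk 1 (δ, q) (δ', q') (by omega) (by omega) (hm _ _ h5)
          · cases δ
            · cases δ'
              · exact Or.inl (Or.inr ⟨rfl, rfl⟩)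
              · right
                refine ⟨Or.inr rfl, ih2.tail ?_⟩
                exact St.mk 2 (false, q) (true, q') (by omega) (by omega) (hr q q' h5)
            · simp at ih
  rcases key _ h with h1 | ⟨_, h1⟩
  · exfalso
    cases d <;> simp at h1
  · exact h1

section four

variable {l m m' r : NB Q} {d : Bool} {x y : Q}

theorem four1 : Cr l (m * m') r d x y ↔
    Rn (lch [l, m, m', r]) 0 4 (ent 1 3 d, (d, x)) (ext 1 3 d, (d, y)) := by
  have h := cr_iff [l] [m, m'] [r] (by simp) (by simp) (by simp) d x y
  simpa using h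

theorem four2 : Cr l m (m' * r) d x y ↔
    Rn (lch [l, m, m', r]) 0 4 (ent 1 2 d, (d, x)) (ext 1 2 d, (d, y)) := by
  have h := cr_iff [l] [m] [m', r] (by simp) (by simp) (by simp) d x y
  simpa using h

theorem four3 : Cr (l * m) m' r d x y ↔
    Rn (lch [l, m, m', r]) 0 4 (ent 2 3 d, (d, x)) (ext 2 3 d, (d, y)) := by
  have h := cr_iff [l, m] [m'] [r] (by simp) (by simp) (by simp) d x y
  simpa using h

end four

section five

variable {l m1 m2 m3 r : NB Q} {d : Bool} {x y : Q}

theorem five1 : Cr l (m1 * m2 * m3) r d x y ↔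
    Rn (lch [l, m1, m2, m3, r]) 0 5 (ent 1 4 d, (d, x)) (ext 1 4 d, (d, y)) := by
  have h := cr_iff [l] [m1, m2, m3] [r] (by simp) (by simp) (by simp) d x y
  simpa [mul_assoc] using h

theorem five2 : Cr l m1 (m2 * m3 * r) d x y ↔
    Rn (lch [l, m1, m2, m3, r]) 0 5 (ent 1 2 d, (d, x)) (ext 1 2 d, (d, y)) := by
  have h := cr_iff [l] [m1] [m2, m3, r] (by simp) (by simp) (by simp) d x y
  simpa [mul_assoc] using h

theorem five3 : Cr (l * m1 * m2) m3 r d x y ↔
    Rn (lch [l, m1, m2, m3, r]) 0 5 (ent 3 4 d, (d, x)) (ext 3 4 d, (d, y)) := by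
  have h := cr_iff [l, m1, m2] [m3] [r] (by simp) (by simp) (by simp) d x y
  simpa [mul_assoc] using h

end five

section three

variable {l m r : NB Q}

theorem three0 (c c' : Bool × Q) : (l * m * r) c c' ↔
    Rn (lch [l, m, r]) 0 3 (ent 0 3 c.1, c) (ext 0 3 c'.1, c') := by
  have h := prod_iff [l, m, r] c c'
  simpa [mul_assoc] using h

theorem three1 (d : Bool) (x y : Q) : Cr l m r d x y ↔
    Rn (lch [l, m, r]) 0 3 (ent 1 2 d, (d, x)) (ext 1 2 d, (d, y)) := by
  have h := cr_iff [l] [m] [r] (by simp) (by simp) (by simp) d x y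
  simpa using h

end three

/-- Row A. -/
theorem algFacts (Q : Type) : AlgFacts Q where
  single := by
    intro l m r d x y h
    exact ReflTransGen.single (St.mk 1 (d, x) (d, y) (by omega) (by omega) h)
  mono := by
    intro l l' m m' r r' d x y hl hr hm h
    exact cr_mono hl hr hm h
  compR := by
    intro l m m' r x y z h1 h2
    exact four1.2 (Rn.trans (four2.1 h1) (four3.1 h2))
  compL := by
    intro l m m' r x y z h1 h2
    exact four1.2 (Rn.trans (four3.1 h1) (four2.1 h2))
  splitR := by
    intro l m m' r x z h
    obtain ⟨q, q', h1, h2, h3, h4, h5⟩ := cross_right (p := 1) (four1.1 h) (le_refl _)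
      (by show 1 < 3; omega)
    exact ⟨q', four2.2 (h1.tail (St.mk 1 _ _ h4 h5 h2)), four3.2 h3⟩
  splitL := by
    intro l m m' r x z h
    obtain ⟨q, q', h1, h2, h3, h4, h5⟩ := cross_left (p := 2) (four1.1 h)
      (by show 2 < 3; omega) (by show 1 ≤ 2; omega)
    exact ⟨q', four3.2 (h1.tail (St.mk 2 _ _ h4 h5 h2)), four2.2 h3⟩
  outR := by
    intro l m r a x y b h1 h2 h3
    refine (three0 _ _).2 ?_
    have s1 : St (lch [l, m, r]) 0 3 (0, (false, a)) (1, (false, x)) :=
      St.mk 0 (false, a) (false, x) (by omega) (by omega) h1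
    have s2 : St (lch [l, m, r]) 0 3 (2, (false, y)) (3, (false, b)) :=
      St.mk 2 (false, y) (false, b) (by omega) (by omega) h3
    exact Rn.trans (ReflTransGen.single s1) (ReflTransGen.tail ((three1 false x y).1 h2) s2)
  outL := by
    intro l m r a x y b h1 h2 h3
    refine (three0 _ _).2 ?_
    have s1 : St (lch [l, m, r]) 0 3 (3, (true, a)) (2, (true, x)) :=
      St.mk 2 (true, a) (true, x) (by omega) (by omega) h1
    have s2 : St (lch [l, m, r]) 0 3 (1, (true, y)) (0, (true, b)) :=
      St.mk 0 (true, y) (true, b) (by omega) (by omega) h3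
    exact Rn.trans (ReflTransGen.single s1) (ReflTransGen.tail ((three1 true x y).1 h2) s2)
  inR := by
    intro l m r a b h
    have h0 := (three0 _ _).1 h
    obtain ⟨q, x, h1, h2, h3, _, _⟩ := cross_right (p := 0) h0 (le_refl _) (by show 0 < 3; omega)
    have e1 := Rn.eq_ent (c := (false, q)) h1
    have e2 : a = q := by simpa using e1
    subst e2
    obtain ⟨y, q', h4, h5, h6, _, _⟩ := cross_right (p := 2) h3 (by show 1 ≤ 2; omega)
      (by show 2 < 3; omega)
    have e3 := Rn.eq_ext (c := (false, q')) h6
    have e4 : b = q' := by simpa using e3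
    subst e4
    exact ⟨x, y, h2, (three1 false x y).2 h4, h5⟩
  inL := by
    intro l m r a b h
    have h0 := (three0 _ _).1 h
    obtain ⟨q, x, h1, h2, h3, _, _⟩ := cross_left (p := 2) h0 (by show 2 < 3; omega)
      (by show 0 ≤ 2; omega)
    have e1 := Rn.eq_ent (c := (true, q)) h1
    have e2 : a = q := by simpa using e1
    subst e2
    obtain ⟨y, q', h4, h5, h6, _, _⟩ := cross_left (p := 0) h3 (by show 0 < 2; omega)
      (by show 0 ≤ 0; omega)
    have e3 := Rn.eq_ext (c := (true, q')) h6
    have e4 : b = q' := by simpa using e3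
    subst e4
    exact ⟨x, y, h2, (three1 true x y).2 h4, h5⟩
  dirR := by
    intro l m1 m2 m3 r x z h
    obtain ⟨q, q', h1, h2, h3, h4, h5⟩ := cross_right (p := 2) (five1.1 h)
      (by show 1 ≤ 2; omega) (by show 2 < 4; omega)
    exact ⟨q, q', five2.2 h1, h2, five3.2 h3⟩
  dirL := by
    intro l m1 m2 m3 r x z h
    obtain ⟨q, q', h1, h2, h3, h4, h5⟩ := cross_left (p := 2) (five1.1 h)
      (by show 2 < 4; omega) (by show 1 ≤ 2; omega)
    exact ⟨q, q', five3.2 h1, h2, five2.2 h3⟩
  bncR := by
    intro f g q q' h
    exact ReflTransGen.single (St.mk 0 (false, q) (true, q') (by omega) (by omega) h)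
  bncL := by
    intro f g q q' h
    exact ReflTransGen.single (St.mk 1 (true, q) (false, q') (by omega) (by omega) h)
  list := by
    intro l r M d x y hM
    have h := cr_iff [l] M [r] (by simp) hM (by simp) d x y
    have e1 : M.length + 2 = 1 + M.length + 1 := by omega
    have e2 : M.length + 1 = 1 + M.length := by omega
    rw [e1, e2]
    simpa using h

end Vale.Agent.P343.H741
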