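import Vale.Agent.P343.H741.Iface

/-!
From the exponential lower bound to the statement about polynomials.
-/

namespace Vale.Agent.P343.H741

/-- An exponential lower bound over one alphabet excludes every polynomial. -/
theorem no_poly_compl (α : Type)
    (h : ∀ n j : ℕ, 33 * j + 80 ≤ n → ∃ A : TwoNFA α (Fin n), A.OneWay ∧
      ∀ (s : ℕ) (B : TwoNFA α (Fin s)), (∀ w, B.Accepts w ↔ ¬ A.Accepts w) → 2 ^ j ≤ s) :
    ¬ ∃ p : Polynomial ℝ, ∀ (n : ℕ) (A : TwoNFA α (Fin n)), A.OneWay →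
      ∃ s : ℕ, (s : ℝ) ≤ p.eval (n : ℝ) ∧
        ∃ B : TwoNFA α (Fin s), ∀ w, B.Accepts w ↔ ¬ A.Accepts w := by
  rintro ⟨p, hp⟩
  obtain ⟨j, hj⟩ := Box.poly_lt_two_pow
    (p.comp (Polynomial.C 33 * Polynomial.X + Polynomial.C 80))
  obtain ⟨A, hA, hlow⟩ := h _ j (le_refl (33 * j + 80))
  obtain ⟨s, hs, B, heq⟩ := hp _ A hA
  have h1 : ((2 : ℝ) ^ j) ≤ s := by exact_mod_cast hlow s B heq
  have h2 : (p.comp (Polynomial.C 33 * Polynomial.X + Polynomial.C 80)).eval (j : ℝ) =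
      p.eval ((33 * j + 80 : ℕ) : ℝ) := by
    rw [Polynomial.eval_comp]
    simp only [Polynomial.eval_add, Polynomial.eval_mul, Polynomial.eval_C, Polynomial.eval_X,
      Nat.cast_add, Nat.cast_mul, Nat.cast_ofNat]
  rw [h2] at hj
  linarith

/-- Q1 as posed, from the bound over the alphabet `Bool`. -/
theorem no_poly_q1
    (h : ∀ n j : ℕ, 33 * j + 80 ≤ n → ∃ A : TwoNFA Bool (Fin n), A.OneWay ∧
      ∀ (s : ℕ) (B : TwoNFA Bool (Fin s)), (∀ w, B.Accepts w ↔ ¬ A.Accepts w) → 2 ^ j ≤ s) :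
    ¬ ∃ p : Polynomial ℝ, ∀ (α : Type) (_ : Finite α) (n : ℕ) (A : TwoNFA α (Fin n)),
      ∃ s : ℕ, (s : ℝ) ≤ p.eval (n : ℝ) ∧
        ∃ B : TwoNFA α (Fin s), ∀ w, B.Accepts w ↔ ¬ A.Accepts w := by
  rintro ⟨p, hp⟩
  exact no_poly_compl Bool h ⟨p, fun n A _ => hp Bool inferInstance n A⟩

end Vale.Agent.P343.H741
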