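import Vale.Agent.P343.H741.Alg
import Vale.Agent.P343.H741.NoPoly
import Vale.Agent.P343.H573.Pts
import Vale.Agent.P343.H445.Count
import Vale.Agent.P343.H463.Toggle
import Vale.Agent.P343.H650.Step
import Vale.Agent.P343.H69.Aut
import Vale.Agent.P343.H744.Tower
import Vale.Agent.P343.H744.Top
import Vale.Agent.P343.H69.ComplUpper
import Vale.Agent.P343.H986.Live

/-!
All rows together.
-/

namespace Vale.Agent.P343.H741

theorem ptsAll : ∀ (Q : Type) [Finite Q], PtsFacts Q := fun Q _ => H573.pts Q (algFacts Q)

theorem countAll : CountStmt := count ptsAll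

theorem toggleAll : ToggleStmt := H463.toggle (fun Q _ => algFacts Q) ptsAll

theorem stepAll : StepStmt := H650.step ptsAll countAll toggleAll

theorem baseAll : BaseStmt := H744.base ptsAll

theorem topAll : TopStmt := H744.top

theorem finalAll : FinalStmt := H744.final stepAll baseAll topAll H69.aut

end Vale.Agent.P343.H741

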