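import Mathlib.Logic.Relation
import Mathlib.Algebra.BigOperators.Group.List.Basic
import Mathlib.Algebra.Group.Defs
import Mathlib.Data.Fintype.Prod
import Mathlib.Data.Fintype.Pi
import Mathlib.Data.Fintype.Powerset
import Mathlib.Data.Finite.Prod
import Mathlib.Data.Set.Card
import Mathlib.Tactic
import Mathlib.Tactic.Ring
import Mathlib.Tactic.Linarith
import Mathlib.Order.Monotone.Basic

/-!
Nondeterministic two-way boxes: a box tells in which ways a head that enters it can leave it.
A configuration is a direction of movement (`false`: to the right, `true`: to the left) and a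
state.
-/

namespace Vale.Agent.P343.H741

open Relation

/-- A nondeterministic two-way box. `f (d, q) (d', q')`: a head that enters the box moving in
direction `d` in state `q` can leave it moving in direction `d'` in state `q'`. -/
def NB (Q : Type) : Type := Bool × Q → Bool × Q → Prop

variable {Q : Type}

/-- The end of the window `[lo, hi]` at which a head moving in direction `d` enters it. -/
def ent (lo hi : ℕ) (d : Bool) : ℕ := if d then hi else lo

/-- The end of the window `[lo, hi]` at which a head moving in direction `d` leaves it. -/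
def ext (lo hi : ℕ) (d : Bool) : ℕ := if d then lo else hi

@[simp] theorem ent_false (lo hi : ℕ) : ent lo hi false = lo := rfl
@[simp] theorem ent_true (lo hi : ℕ) : ent lo hi true = hi := rfl
@[simp] theorem ext_false (lo hi : ℕ) : ext lo hi false = hi := rfl
@[simp] theorem ext_true (lo hi : ℕ) : ext lo hi true = lo := rfl

/-- One passage through a box of the chain `b`; the box number `i` lies between the boundaries
`i` and `i + 1`, and only the boxes `lo, ..., hi - 1` are present. -/
inductive St (b : ℕ → NB Q) (lo hi : ℕ) : ℕ × (Bool × Q) → ℕ × (Bool × Q) → Prop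
  | mk (i : ℕ) (c c' : Bool × Q) : lo ≤ i → i < hi → b i c c' →
      St b lo hi (ent i (i + 1) c.1, c) (ext i (i + 1) c'.1, c')

/-- Runs in the window. -/
def Rn (b : ℕ → NB Q) (lo hi : ℕ) : ℕ × (Bool × Q) → ℕ × (Bool × Q) → Prop :=
  ReflTransGen (St b lo hi)

/-- The box of a window. -/
def seg (b : ℕ → NB Q) (lo hi : ℕ) : NB Q :=
  fun c c' => Rn b lo hi (ent lo hi c.1, c) (ext lo hi c'.1, c')

theorem St.mono {b : ℕ → NB Q} {lo hi lo' hi' : ℕ} (h1 : lo' ≤ lo) (h2 : hi ≤ hi')
    {x y : ℕ × (Bool × Q)} (h : St b lo hi x y) : St b lo' hi' x y := by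
  cases h with
  | mk i c c' h3 h4 h5 => exact St.mk i c c' (h1.trans h3) (lt_of_lt_of_le h4 h2) h5

theorem Rn.mono {b : ℕ → NB Q} {lo hi lo' hi' : ℕ} (h1 : lo' ≤ lo) (h2 : hi ≤ hi')
    {x y : ℕ × (Bool × Q)} (h : Rn b lo hi x y) : Rn b lo' hi' x y :=
  ReflTransGen.mono (fun _ _ h => St.mono h1 h2 h) _ _ h

theorem Rn.trans {b : ℕ → NB Q} {lo hi : ℕ} {x y z : ℕ × (Bool × Q)} (h : Rn b lo hi x y)
    (h' : Rn b lo hi y z) : Rn b lo hi x z := ReflTransGen.trans h h'

/-- Runs depend only on the boxes in the window and grow with them. -/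
theorem Rn.mono_box {b b' : ℕ → NB Q} {lo hi : ℕ}
    (hb : ∀ i, lo ≤ i → i < hi → ∀ c c', b i c c' → b' i c c')
    {x y : ℕ × (Bool × Q)} (h : Rn b lo hi x y) : Rn b' lo hi x y := by
  refine ReflTransGen.mono ?_ _ _ h
  intro x y h
  cases h with
  | mk i c c' h3 h4 h5 => exact St.mk i c c' h3 h4 (hb i h3 h4 c c' h5)

theorem Rn.pos {b : ℕ → NB Q} {lo hi : ℕ} {x y : ℕ × (Bool × Q)} (h : Rn b lo hi x y)
    (h1 : lo ≤ x.1) (h2 : x.1 ≤ hi) : lo ≤ y.1 ∧ y.1 ≤ hi := by
  induction h with
  | refl => exact ⟨h1, h2⟩
  | tail _ h4 ih =>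
    cases h4 with
    | mk i c c' h5 h6 h7 =>
      obtain ⟨d, q⟩ := c'
      cases d
      · show lo ≤ i + 1 ∧ i + 1 ≤ hi
        omega
      · show lo ≤ i ∧ i ≤ hi
        omega

/-- A head that enters the window has not been inside it before. -/
theorem Rn.eq_ent {b : ℕ → NB Q} {lo hi : ℕ} {x : ℕ × (Bool × Q)} {c : Bool × Q}
    (h : Rn b lo hi x (ent lo hi c.1, c)) : x = (ent lo hi c.1, c) := by
  unfold Rn at h
  rw [ReflTransGen.cases_tail_iff] at h
  rcases h with h | ⟨z, _, h2⟩
  · exact h.symm
  · exfalso
    generalize hw : ((ent lo hi c.1, c) : ℕ × (Bool × Q)) = w at h2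
    cases h2 with
    | mk i c1 c2 h3 h4 h5 =>
      obtain ⟨e1, e2⟩ := Prod.mk.inj hw
      subst e2
      obtain ⟨d, q⟩ := c
      cases d
      · simp at e1; omega
      · simp at e1; omega

theorem exists_between {φ : ℕ → ℕ} {lo hi i : ℕ} (h1 : φ lo ≤ i) (h2 : i < φ hi)
    (hφ : StrictMono φ) : ∃ J, lo ≤ J ∧ J < hi ∧ φ J ≤ i ∧ i < φ (J + 1) := by
  have hlt : lo < hi := hφ.lt_iff_lt.1 (lt_of_le_of_lt h1 h2)
  obtain ⟨n, rfl⟩ := Nat.exists_eq_add_of_lt hlt
  clear hlt
  induction n with
  | zero => exact ⟨lo, le_refl _, by omega, h1, h2⟩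
  | succ n ih =>
    by_cases h3 : i < φ (lo + n + 1)
    · obtain ⟨J, h4, h5, h6, h7⟩ := ih h3
      exact ⟨J, h4, by omega, h6, h7⟩
    · exact ⟨lo + n + 1, by omega, by omega, by omega, h2⟩

/-- The contraction theorem. -/
theorem contract (b : ℕ → NB Q) {φ : ℕ → ℕ} (hφ : StrictMono φ) {lo hi k k' : ℕ}
    {c c' : Bool × Q} :
    Rn (fun j => seg b (φ j) (φ (j + 1))) lo hi (k, c) (k', c') ↔
      Rn b (φ lo) (φ hi) (φ k, c) (φ k', c') := by
  constructor
  · intro h
    have key : ∀ y, Rn (fun j => seg b (φ j) (φ (j + 1))) lo hi (k, c) y →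
        Rn b (φ lo) (φ hi) (φ k, c) (φ y.1, y.2) := by
      intro y h
      induction h with
      | refl => exact ReflTransGen.refl
      | tail _ h4 ih =>
        cases h4 with
        | mk i c1 c2 h5 h6 h7 =>
          refine Rn.trans ih ?_
          have h8 : Rn b (φ lo) (φ hi) (ent (φ i) (φ (i + 1)) c1.1, c1)
              (ext (φ i) (φ (i + 1)) c2.1, c2) :=
            Rn.mono (hφ.monotone h5) (hφ.monotone (by omega)) h7
          obtain ⟨d1, q1⟩ := c1
          obtain ⟨d2, q2⟩ := c2
          cases d1 <;> cases d2 <;> exact h8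
    exact key _ h
  · intro h
    set B : ℕ → NB Q := fun j => seg b (φ j) (φ (j + 1)) with hB
    have key : ∀ y, Rn b (φ lo) (φ hi) (φ k, c) y →
        (∃ K, y.1 = φ K ∧ Rn B lo hi (k, c) (K, y.2)) ∨
        (∃ K, ∃ κ : Bool × Q, lo ≤ K ∧ K < hi ∧ Rn B lo hi (k, c) (ent K (K + 1) κ.1, κ) ∧
          Rn b (φ K) (φ (K + 1)) (ent (φ K) (φ (K + 1)) κ.1, κ) y) := by
      intro y h
      induction h with
      | refl => exact Or.inl ⟨k, rfl, ReflTransGen.refl⟩
      | tail _ h4 ih =>
        cases h4 with
        | mk i γ γ' h5 h6 h7 =>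
          obtain ⟨J, hJ1, hJ2, hJ3, hJ4⟩ := exists_between h5 h6 hφ
          have hst : Rn b (φ J) (φ (J + 1)) (ent i (i + 1) γ.1, γ) (ext i (i + 1) γ'.1, γ') :=
            ReflTransGen.single (St.mk i γ γ' hJ3 hJ4 h7)
          right
          rcases ih with ⟨K, h8, h9⟩ | ⟨K, κ, h8, h9, h10, h11⟩
          · simp only at h8 h9
            have hpos : φ K = ent i (i + 1) γ.1 := h8.symm
            obtain ⟨d, q⟩ := γ
            cases d
            · simp only [ent_false] at hpos
              have e1 : J ≤ K := hφ.le_iff_le.1 (by omega)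
              have e2 : K < J + 1 := hφ.lt_iff_lt.1 (by omega)
              have e3 : K = J := by omega
              subst e3
              refine ⟨K, (false, q), hJ1, hJ2, h9, ?_⟩
              simp only [ent_false] at hst ⊢
              rw [show ((φ K, (false, q)) : ℕ × (Bool × Q)) = (i, (false, q)) by rw [hpos]]
              exact hst
            · simp only [ent_true] at hpos
              have e1 : J < K := hφ.lt_iff_lt.1 (by omega)
              have e2 : K ≤ J + 1 := hφ.le_iff_le.1 (by omega)
              have e3 : K = J + 1 := by omega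
              subst e3
              refine ⟨J, (true, q), hJ1, hJ2, h9, ?_⟩
              simp only [ent_true] at hst ⊢
              rw [show ((φ (J + 1), (true, q)) : ℕ × (Bool × Q)) = (i + 1, (true, q)) by rw [hpos]]
              exact hst
          · by_cases hJK : J = K
            · subst hJK
              exact ⟨J, κ, h8, h9, h10, Rn.trans h11 hst⟩
            · have hKK : φ K < φ (K + 1) := hφ (by omega)
              have hp := Rn.pos h11 (by
                cases κ.1
                · exact le_refl _
                · exact hKK.le) (by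
                cases κ.1
                · exact hKK.le
                · exact le_refl _)
              simp only at hp
              rcases lt_or_gt_of_ne hJK with h12 | h12
              · -- i < φ K
                have e1 : φ (J + 1) ≤ φ K := hφ.monotone (by omega)
                obtain ⟨d, q⟩ := γ
                cases d
                · simp only [ent_false] at hp
                  omega
                · simp only [ent_true] at hp h11 hst
                  have e2 : φ K = i + 1 := by omega
                  have e3 : J + 1 = K := by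
                    have e4 : φ (J + 1) = φ K := by omega
                    exact hφ.injective e4
                  subst e3
                  refine ⟨J, (true, q), hJ1, hJ2, ?_, ?_⟩
                  · refine Rn.trans h10 (ReflTransGen.single ?_)
                    refine St.mk (J + 1) κ (true, q) h8 h9 ?_
                    show Rn b _ _ _ _
                    simp only [ext_true]
                    rw [show ((φ (J + 1), (true, q)) : ℕ × (Bool × Q)) = (i + 1, (true, q)) by
                      rw [e2]]
                    exact h11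
                  · simp only [ent_true]
                    rw [show ((φ (J + 1), (true, q)) : ℕ × (Bool × Q)) = (i + 1, (true, q)) by
                      rw [e2]]
                    exact hst
              · have e1 : φ (K + 1) ≤ φ J := hφ.monotone (by omega)
                obtain ⟨d, q⟩ := γ
                cases d
                · simp only [ent_false] at hp h11 hst
                  have e2 : φ (K + 1) = i := by omega
                  have e3 : J = K + 1 := by
                    have e4 : φ J = φ (K + 1) := by omega
                    exact hφ.injective e4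
                  subst e3
                  refine ⟨K + 1, (false, q), hJ1, hJ2, ?_, ?_⟩
                  · refine Rn.trans h10 (ReflTransGen.single ?_)
                    refine St.mk K κ (false, q) h8 h9 ?_
                    show Rn b _ _ _ _
                    simp only [ext_false]
                    rw [show ((φ (K + 1), (false, q)) : ℕ × (Bool × Q)) = (i, (false, q)) by
                      rw [e2]]
                    exact h11
                  · simp only [ent_false]
                    rw [show ((φ (K + 1), (false, q)) : ℕ × (Bool × Q)) = (i, (false, q)) by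
                      rw [e2]]
                    exact hst
                · simp only [ent_true] at hp
                  omega
    rcases key _ h with ⟨K, h8, h9⟩ | ⟨K, κ, h8, h9, h10, h11⟩
    · have e1 : k' = K := hφ.injective h8
      subst e1
      exact h9
    · have hKK : φ K < φ (K + 1) := hφ (by omega)
      have hp := Rn.pos h11 (by
        cases κ.1
        · exact le_refl _
        · exact hKK.le) (by
        cases κ.1
        · exact hKK.le
        · exact le_refl _)
      simp only at hp
      have e1 : K ≤ k' := hφ.le_iff_le.1 hp.1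
      have e2 : k' ≤ K + 1 := hφ.le_iff_le.1 hp.2
      obtain ⟨d, q⟩ := c'
      have e3 : k' = K ∨ k' = K + 1 := by omega
      rcases e3 with rfl | rfl
      · cases d
        · have e4 := Rn.eq_ent (c := (false, q)) h11
          have e5 : κ = (false, q) := (Prod.mk.inj e4).2
          subst e5
          exact h10
        · refine Rn.trans h10 (ReflTransGen.single ?_)
          exact St.mk k' κ (true, q) h8 h9 h11
      · cases d
        · refine Rn.trans h10 (ReflTransGen.single ?_)
          exact St.mk K κ (false, q) h8 h9 h11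
        · have e4 := Rn.eq_ent (c := (true, q)) h11
          have e5 : κ = (true, q) := (Prod.mk.inj e4).2
          subst e5
          exact h10

/-- A head that has left the window does not move. -/
theorem Rn.eq_ext {b : ℕ → NB Q} {lo hi : ℕ} {y : ℕ × (Bool × Q)} {c : Bool × Q}
    (h : Rn b lo hi (ext lo hi c.1, c) y) : y = (ext lo hi c.1, c) := by
  unfold Rn at h
  rw [ReflTransGen.cases_head_iff] at h
  rcases h with h | ⟨z, h2, _⟩
  · exact h.symm
  · exfalso
    generalize hw : ((ext lo hi c.1, c) : ℕ × (Bool × Q)) = w at h2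
    cases h2 with
    | mk i c1 c2 h3 h4 h5 =>
      obtain ⟨e1, e2⟩ := Prod.mk.inj hw
      subst e2
      obtain ⟨d, q⟩ := c
      cases d
      · simp at e1; omega
      · simp at e1; omega

theorem seg_single (b : ℕ → NB Q) (n : ℕ) : seg b n (n + 1) = b n := by
  funext c c'
  apply propext
  constructor
  · intro h
    have h' : Rn b n (n + 1) (ent n (n + 1) c.1, c) (ext n (n + 1) c'.1, c') := h
    unfold Rn at h'
    rw [ReflTransGen.cases_head_iff] at h'
    rcases h' with h' | ⟨z, h2, h3⟩
    · exfalso
      obtain ⟨e1, e2⟩ := Prod.mk.inj h'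
      subst e2
      obtain ⟨d, q⟩ := c
      cases d
      · simp at e1
      · simp at e1
    · generalize hw : ((ent n (n + 1) c.1, c) : ℕ × (Bool × Q)) = w at h2
      cases h2 with
      | mk i c1 c2 h4 h5 h6 =>
        obtain ⟨e1, e2⟩ := Prod.mk.inj hw
        subst e2
        have e3 : i = n := by omega
        subst e3
        have h7 := Rn.eq_ext (c := c2) h3
        have h8 : c' = c2 := (Prod.mk.inj h7).2
        rw [h8]
        exact h6
  · intro h
    exact ReflTransGen.single (St.mk n c c' (le_refl _) (by omega) h)

theorem Rn.of_empty {b : ℕ → NB Q} {n : ℕ} {x y : ℕ × (Bool × Q)} (h : Rn b n n x y) :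
    x = y := by
  unfold Rn at h
  rw [ReflTransGen.cases_head_iff] at h
  rcases h with h | ⟨z, h2, _⟩
  · exact h
  · exfalso
    cases h2 with
    | mk i c c' h3 h4 h5 => omega

/-- The box of the empty word. -/
def one : NB Q := fun c c' => c = c'

theorem seg_self (b : ℕ → NB Q) (n : ℕ) : seg b n n = one := by
  funext c c'
  apply propext
  constructor
  · intro h
    have h1 := Rn.of_empty h
    exact (Prod.mk.inj h1).2
  · intro h
    have h' : c = c' := h
    subst h'
    show Rn b n n _ _
    have : (ent n n c.1, c) = (ext n n c.1, c) := by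
      cases c.1 <;> rfl
    rw [this]
    exact ReflTransGen.refl

/-- The chain of two boxes. -/
def ch2 (f g : NB Q) : ℕ → NB Q := fun i => if i = 0 then f else g

/-- Composition of boxes (`f` to the left of `g`). -/
def mul (f g : NB Q) : NB Q := seg (ch2 f g) 0 2

theorem seg_congr {b b' : ℕ → NB Q} {lo hi : ℕ} (h : ∀ i, lo ≤ i → i < hi → b i = b' i) :
    seg b lo hi = seg b' lo hi := by
  funext c c'
  apply propext
  constructor
  · intro h1
    exact Rn.mono_box (fun i h2 h3 c c' h4 => by rw [← h i h2 h3]; exact h4) h1
  · intro h1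
    exact Rn.mono_box (fun i h2 h3 c c' h4 => by rw [h i h2 h3]; exact h4) h1

theorem Rn_congr {b b' : ℕ → NB Q} {lo hi : ℕ} (h : ∀ i, lo ≤ i → i < hi → b i = b' i)
    {x y : ℕ × (Bool × Q)} : Rn b lo hi x y ↔ Rn b' lo hi x y := by
  constructor
  · intro h1
    exact Rn.mono_box (fun i h2 h3 c c' h4 => by rw [← h i h2 h3]; exact h4) h1
  · intro h1
    exact Rn.mono_box (fun i h2 h3 c c' h4 => by rw [h i h2 h3]; exact h4) h1

theorem seg_split_strict (b : ℕ → NB Q) {lo mid hi : ℕ} (h1 : lo < mid) (h2 : mid < hi) :
    seg b lo hi = mul (seg b lo mid) (seg b mid hi) := by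
  let φ : ℕ → ℕ := fun k => if k = 0 then lo else if k = 1 then mid else hi + (k - 2)
  have hφ : StrictMono φ := by
    apply strictMono_nat_of_lt_succ
    intro k
    rcases k with _ | _ | k
    · exact h1
    · exact h2
    · show hi + (k + 1 + 1 - 2) < hi + (k + 1 + 1 + 1 - 2)
      omega
  funext c c'
  apply propext
  have h3 := contract b hφ (lo := 0) (hi := 2) (k := ent 0 2 c.1) (k' := ext 0 2 c'.1)
    (c := c) (c' := c')
  have e1 : φ (ent 0 2 c.1) = ent lo hi c.1 := by
    cases c.1 <;> rfl
  have e2 : φ (ext 0 2 c'.1) = ext lo hi c'.1 := by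
    cases c'.1 <;> rfl
  rw [e1, e2] at h3
  have h4 : Rn (fun j => seg b (φ j) (φ (j + 1))) 0 2 (ent 0 2 c.1, c) (ext 0 2 c'.1, c') ↔
      Rn (ch2 (seg b lo mid) (seg b mid hi)) 0 2 (ent 0 2 c.1, c) (ext 0 2 c'.1, c') := by
    apply Rn_congr
    intro i _ h5
    have h6 : i = 0 ∨ i = 1 := by omega
    rcases h6 with rfl | rfl <;> rfl
  exact h3.symm.trans h4

theorem mul_assoc' (f g h : NB Q) : mul (mul f g) h = mul f (mul g h) := by
  let b : ℕ → NB Q := fun i => if i = 0 then f else if i = 1 then g else h
  have h1 := seg_split_strict b (lo := 0) (mid := 1) (hi := 3) (by omega) (by omega)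
  have h2 := seg_split_strict b (lo := 0) (mid := 2) (hi := 3) (by omega) (by omega)
  have h3 := seg_split_strict b (lo := 0) (mid := 1) (hi := 2) (by omega) (by omega)
  have h4 := seg_split_strict b (lo := 1) (mid := 2) (hi := 3) (by omega) (by omega)
  rw [seg_single b 0] at h1 h3
  rw [seg_single b 1] at h3 h4
  rw [seg_single b 2] at h4 h2
  rw [h4] at h1
  rw [h3] at h2
  exact h2.symm.trans h1

theorem one_mul' (f : NB Q) : mul one f = f := by
  funext c c'
  apply propext
  constructor
  · intro h
    have key : ∀ x y, Rn (ch2 one f) 0 2 x y → Rn (fun _ => f) 0 1 (x.1 - 1, x.2) (y.1 - 1, y.2) := by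
      intro x y h
      induction h with
      | refl => exact ReflTransGen.refl
      | tail _ h2 ih =>
        refine Rn.trans ih ?_
        cases h2 with
        | mk i c1 c2 h3 h4 h5 =>
          have h6 : i = 0 ∨ i = 1 := by omega
          rcases h6 with rfl | rfl
          · have h7 : c1 = c2 := h5
            subst h7
            obtain ⟨d, q⟩ := c1
            cases d <;> exact ReflTransGen.refl
          · have h7 : f c1 c2 := h5
            have h8 : St (fun _ => f) 0 1 (ent 0 1 c1.1, c1) (ext 0 1 c2.1, c2) :=
              St.mk 0 c1 c2 (le_refl _) (by omega) h7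
            obtain ⟨d1, q1⟩ := c1
            obtain ⟨d2, q2⟩ := c2
            cases d1 <;> cases d2 <;> exact ReflTransGen.single h8
    have h1 := key _ _ h
    rw [← seg_single (fun _ => f) 0]
    show Rn _ _ _ _ _
    obtain ⟨d1, q1⟩ := c
    obtain ⟨d2, q2⟩ := c'
    cases d1 <;> cases d2 <;> exact h1
  · intro h
    have s1 : St (ch2 one f) 0 2 (ent 1 2 c.1, c) (ext 1 2 c'.1, c') :=
      St.mk 1 c c' (by omega) (by omega) h
    have s0 : ∀ q : Q, St (ch2 one f) 0 2 (0, (false, q)) (1, (false, q)) :=
      fun q => St.mk 0 (false, q) (false, q) (by omega) (by omega) rfl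
    have s0' : ∀ q : Q, St (ch2 one f) 0 2 (1, (true, q)) (0, (true, q)) :=
      fun q => St.mk 0 (true, q) (true, q) (by omega) (by omega) rfl
    show Rn _ _ _ _ _
    obtain ⟨d1, q1⟩ := c
    obtain ⟨d2, q2⟩ := c'
    cases d1 <;> cases d2
    · exact (ReflTransGen.single (s0 q1)).tail s1
    · exact ((ReflTransGen.single (s0 q1)).tail s1).tail (s0' q2)
    · exact ReflTransGen.single s1
    · exact (ReflTransGen.single s1).tail (s0' q2)

theorem mul_one' (f : NB Q) : mul f one = f := by
  funext c c'
  apply propext
  constructor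
  · intro h
    have key : ∀ x y, Rn (ch2 f one) 0 2 x y →
        Rn (fun _ => f) 0 1 (min x.1 1, x.2) (min y.1 1, y.2) := by
      intro x y h
      induction h with
      | refl => exact ReflTransGen.refl
      | tail _ h2 ih =>
        refine Rn.trans ih ?_
        cases h2 with
        | mk i c1 c2 h3 h4 h5 =>
          have h6 : i = 0 ∨ i = 1 := by omega
          rcases h6 with rfl | rfl
          · have h7 : f c1 c2 := h5
            have h8 : St (fun _ => f) 0 1 (ent 0 1 c1.1, c1) (ext 0 1 c2.1, c2) :=
              St.mk 0 c1 c2 (le_refl _) (by omega) h7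
            obtain ⟨d1, q1⟩ := c1
            obtain ⟨d2, q2⟩ := c2
            cases d1 <;> cases d2 <;> exact ReflTransGen.single h8
          · have h7 : c1 = c2 := h5
            subst h7
            obtain ⟨d, q⟩ := c1
            cases d <;> exact ReflTransGen.refl
    have h1 := key _ _ h
    rw [← seg_single (fun _ => f) 0]
    show Rn _ _ _ _ _
    obtain ⟨d1, q1⟩ := c
    obtain ⟨d2, q2⟩ := c'
    cases d1 <;> cases d2 <;> exact h1
  · intro h
    have s1 : St (ch2 f one) 0 2 (ent 0 1 c.1, c) (ext 0 1 c'.1, c') :=
      St.mk 0 c c' (by omega) (by omega) h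
    have s0 : ∀ q : Q, St (ch2 f one) 0 2 (1, (false, q)) (2, (false, q)) :=
      fun q => St.mk 1 (false, q) (false, q) (by omega) (by omega) rfl
    have s0' : ∀ q : Q, St (ch2 f one) 0 2 (2, (true, q)) (1, (true, q)) :=
      fun q => St.mk 1 (true, q) (true, q) (by omega) (by omega) rfl
    show Rn _ _ _ _ _
    obtain ⟨d1, q1⟩ := c
    obtain ⟨d2, q2⟩ := c'
    cases d1 <;> cases d2
    · exact (ReflTransGen.single s1).tail (s0 q2)
    · exact ReflTransGen.single s1
    · exact ((ReflTransGen.single (s0' q1)).tail s1).tail (s0 q2)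
    · exact (ReflTransGen.single (s0' q1)).tail s1

instance : Monoid (NB Q) where
  mul := mul
  one := one
  mul_assoc := mul_assoc'
  one_mul := one_mul'
  mul_one := mul_one'

instance [Finite Q] : Finite (NB Q) := by
  unfold NB
  infer_instance

theorem mul_def (f g : NB Q) : f * g = seg (ch2 f g) 0 2 := rfl

theorem one_def (c c' : Bool × Q) : (1 : NB Q) c c' ↔ c = c' := Iff.rfl

theorem seg_split (b : ℕ → NB Q) {lo mid hi : ℕ} (h1 : lo ≤ mid) (h2 : mid ≤ hi) :
    seg b lo hi = seg b lo mid * seg b mid hi := by
  rcases Nat.lt_or_eq_of_le h1 with h1 | rfl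
  · rcases Nat.lt_or_eq_of_le h2 with h2 | rfl
    · exact seg_split_strict b h1 h2
    · rw [seg_self]
      exact (mul_one _).symm
  · rw [seg_self]
    exact (one_mul _).symm

theorem seg_list (b : ℕ → NB Q) (lo n : ℕ) :
    seg b lo (lo + n) = ((List.range' lo n).map b).prod := by
  induction n with
  | zero => exact seg_self b lo
  | succ n ih =>
    rw [seg_split b (mid := lo + n) (by omega) (by omega), ih, ← Nat.add_assoc, seg_single,
      List.range'_concat, List.map_append, List.prod_append]
    simp

/-- Boxes are monotone. -/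
theorem mul_mono {f f' g g' : NB Q} (hf : ∀ c c', f c c' → f' c c') (hg : ∀ c c', g c c' → g' c c')
    {c c' : Bool × Q} (h : (f * g) c c') : (f' * g') c c' := by
  refine Rn.mono_box ?_ h
  intro i _ h2 c c' h3
  have h6 : i = 0 ∨ i = 1 := by omega
  rcases h6 with rfl | rfl
  · exact hf _ _ h3
  · exact hg _ _ h3

/-! ### Crossing a box in an environment -/

/-- The chain of three boxes. -/
def ch3 (l m r : NB Q) : ℕ → NB Q := fun i => if i = 0 then l else if i = 1 then m else r

/-- In the chain `l, m, r` a head that is about to enter `m` moving in direction `d` in state `x`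
can come to the other side of `m`, moving in direction `d` in state `y`. -/
def Cr (l m r : NB Q) (d : Bool) (x y : Q) : Prop :=
  Rn (ch3 l m r) 0 3 (ent 1 2 d, (d, x)) (ext 1 2 d, (d, y))

end Vale.Agent.P343.H741
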