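import Vale.Agent.P343.H741.Core
import Vale.Agent.P343.Bdl.B1

/-!
Definitions and literal statements of the rows of the proof that complementing one-way
nondeterministic automata costs exponentially many states for two-way nondeterministic automata.
-/

namespace Vale.Agent.P343.H741

open Relation

variable {Q : Type}

/-- Crossing a box `e` inside a chain of boxes `e`. -/
def T (e : NB Q) (d : Bool) (x y : Q) : Prop := Cr e e e d x y

/-- Crossing a box `s` inside a chain of boxes `e`. -/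
def X (e s : NB Q) (d : Bool) (x y : Q) : Prop := Cr e s e d x y

/-- Recurrent states of an idempotent box, for heads moving in direction `d`. -/
def Pt (e : NB Q) (d : Bool) (x : Q) : Prop := T e d x x

/-- The class of a recurrent state. -/
def cl (e : NB Q) (d : Bool) (x : Q) : Set Q := {y | T e d x y ∧ T e d y x}

/-- The classes of an idempotent box. -/
def Cls (e : NB Q) : Set (Bool × Set Q) := {κ | ∃ x, Pt e κ.1 x ∧ κ.2 = cl e κ.1 x}

/-- The classes of `e` that are lost when `e` is replaced by `f`. -/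
def Lost (e f : NB Q) : Set (Bool × Set Q) :=
  {κ | ∃ x, Pt e κ.1 x ∧ κ.2 = cl e κ.1 x ∧ ¬ X e f κ.1 x x}

/-- The classes of `e` all of whose recurrent states of `e0` lie in classes of `U`. -/
def UC (e0 : NB Q) (U : Set (Bool × Set Q)) (e : NB Q) : Set (Bool × Set Q) :=
  {κ | κ ∈ Cls e ∧ ∀ x ∈ κ.2, Pt e0 κ.1 x → (κ.1, cl e0 κ.1 x) ∈ U}

/-- The passage from `a` to `b` through `e` can be made through the recurrent state `z`. -/
def Via (e : NB Q) (d : Bool) (a b z : Q) : Prop :=
  ∃ x y, e (d, a) (d, x) ∧ T e d x z ∧ T e d z y ∧ e (d, y) (d, b)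

/-- The chain of a list of boxes. -/
def lch (L : List (NB Q)) : ℕ → NB Q := fun i => (L[i]?).getD 1

/-- Row A: algebra of crossings. -/
structure AlgFacts (Q : Type) : Prop where
  single : ∀ {l m r : NB Q} {d : Bool} {x y : Q}, m (d, x) (d, y) → Cr l m r d x y
  mono : ∀ {l l' m m' r r' : NB Q} {d : Bool} {x y : Q},
    (∀ q q', l (true, q) (false, q') → l' (true, q) (false, q')) →
    (∀ q q', r (false, q) (true, q') → r' (false, q) (true, q')) →
    (∀ c c', m c c' → m' c c') → Cr l m r d x y → Cr l' m' r' d x y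
  compR : ∀ {l m m' r : NB Q} {x y z : Q}, Cr l m (m' * r) false x y →
    Cr (l * m) m' r false y z → Cr l (m * m') r false x z
  compL : ∀ {l m m' r : NB Q} {x y z : Q}, Cr (l * m) m' r true x y →
    Cr l m (m' * r) true y z → Cr l (m * m') r true x z
  splitR : ∀ {l m m' r : NB Q} {x z : Q}, Cr l (m * m') r false x z →
    ∃ y, Cr l m (m' * r) false x y ∧ Cr (l * m) m' r false y z
  splitL : ∀ {l m m' r : NB Q} {x z : Q}, Cr l (m * m') r true x z →
    ∃ y, Cr (l * m) m' r true x y ∧ Cr l m (m' * r) true y z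
  outR : ∀ {l m r : NB Q} {a x y b : Q}, l (false, a) (false, x) → Cr l m r false x y →
    r (false, y) (false, b) → (l * m * r) (false, a) (false, b)
  outL : ∀ {l m r : NB Q} {a x y b : Q}, r (true, a) (true, x) → Cr l m r true x y →
    l (true, y) (true, b) → (l * m * r) (true, a) (true, b)
  inR : ∀ {l m r : NB Q} {a b : Q}, (l * m * r) (false, a) (false, b) →
    ∃ x y, l (false, a) (false, x) ∧ Cr l m r false x y ∧ r (false, y) (false, b)
  inL : ∀ {l m r : NB Q} {a b : Q}, (l * m * r) (true, a) (true, b) →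
    ∃ x y, r (true, a) (true, x) ∧ Cr l m r true x y ∧ l (true, y) (true, b)
  dirR : ∀ {l m1 m2 m3 r : NB Q} {x z : Q}, Cr l (m1 * m2 * m3) r false x z →
    ∃ w w', Cr l m1 (m2 * m3 * r) false x w ∧ m2 (false, w) (false, w') ∧
      Cr (l * m1 * m2) m3 r false w' z
  dirL : ∀ {l m1 m2 m3 r : NB Q} {x z : Q}, Cr l (m1 * m2 * m3) r true x z →
    ∃ w w', Cr (l * m1 * m2) m3 r true x w ∧ m2 (true, w) (true, w') ∧
      Cr l m1 (m2 * m3 * r) true w' z
  bncR : ∀ {f g : NB Q} {q q' : Q}, f (false, q) (true, q') → (f * g) (false, q) (true, q')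
  bncL : ∀ {f g : NB Q} {q q' : Q}, g (true, q) (false, q') → (f * g) (true, q) (false, q')
  list : ∀ {l r : NB Q} {M : List (NB Q)} {d : Bool} {x y : Q}, M ≠ [] →
    (Cr l M.prod r d x y ↔ Rn (lch (l :: (M ++ [r]))) 0 (M.length + 2)
      (ent 1 (M.length + 1) d, (d, x)) (ext 1 (M.length + 1) d, (d, y)))

/-- Row P: recurrent states of idempotents.  `s`, `t`, `f` are local at `e`. -/
structure PtsFacts (Q : Type) : Prop where
  /-- transitivity -/
  trans : ∀ {e : NB Q} {d : Bool} {x y z : Q}, e * e = e → T e d x y → T e d y z → T e d x z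
  /-- products of local boxes -/
  comp : ∀ {e s t : NB Q} {d : Bool} {x : Q}, e * e = e → e * s = s → s * e = s → e * t = t →
    t * e = t → X e s d x x → X e t d x x → X e (s * t) d x x
  invL : ∀ {e f : NB Q} {d : Bool} {x y z : Q}, e * e = e → e * f = f → f * e = f →
    T e d x y → X e f d y z → X e f d x z
  invR : ∀ {e f : NB Q} {d : Bool} {x y z : Q}, e * e = e → e * f = f → f * e = f →
    X e f d x y → T e d y z → X e f d x z
  via1 : ∀ {e : NB Q} {d : Bool} {a b : Q}, e * e = e → e (d, a) (d, b) →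
    ∃ z, Pt e d z ∧ Via e d a b z
  via2 : ∀ {e f : NB Q} {d : Bool} {a b z : Q}, e * e = e → e * f = f → f * e = f →
    Via e d a b z → X e f d z z → f (d, a) (d, b)
  via3 : ∀ {e : NB Q} {d : Bool} {a b a' b' z z' : Q}, e * e = e → Via e d a b z →
    Via e d a' b' z' → T e d z z' → e (d, a) (d, b')
  bounce : ∀ {e f : NB Q} {c c' : Bool × Q}, e * f = f → f * e = f → c.1 ≠ c'.1 →
    e c c' → f c c'
  port : ∀ {e f : NB Q} {d : Bool} {y : Q}, e * e = e → f * f = f → e * f = f → f * e = f →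
    Pt f d y → ∃ u v, Pt e d u ∧ Pt e d v ∧ T f d y u ∧ T f d u y ∧ T f d y v ∧ T f d v y ∧
      X e f d u v
  subL : ∀ {e f : NB Q} {d : Bool} {x y z : Q}, e * e = e → f * f = f → e * f = f → f * e = f →
    T e d x y → T f d y z → T f d x z
  subR : ∀ {e f : NB Q} {d : Bool} {x y z : Q}, e * e = e → f * f = f → e * f = f → f * e = f →
    T f d x y → T e d y z → T f d x z
  /-- a richer environment; with `s = e` it gives `X e0 e d x y → T e d x y` -/
  env : ∀ {e0 e s : NB Q} {d : Bool} {x y : Q}, e0 * e = e → e * e0 = e →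
    X e0 s d x y → X e s d x y

/-- Row C: counting lost classes. -/
def CountStmt : Prop :=
  ∀ (Q : Type) [Finite Q] (e0 e f : NB Q) (U : Set (Bool × Set Q)),
    e * e = e → f * f = f → e * f = f → f * e = f → Lost e f ⊆ UC e0 U e →
    2 * (UC e0 U f).ncard + (Lost e f).ncard ≤ 2 * (UC e0 U e).ncard

/-- A list of pieces: fixed boxes and toggles; the toggle `t` is the box `f` or `e`
according to the bit `x t`. -/
def pv {T' : Type} (e f : NB Q) (x : T' → Bool) (L : List (NB Q ⊕ T')) : NB Q :=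
  (L.map (fun p => Sum.elim id (fun t => if x t then f else e) p)).prod

/-- Row G: toggles. -/
def ToggleStmt : Prop :=
  ∀ (Q T' : Type) [Finite Q] (e f : NB Q) (L : List (NB Q ⊕ T')) (x0 : T' → Bool),
    e * e = e → f * f = f → e * f = f → f * e = f → L ≠ [] →
    pv e f x0 L * pv e f x0 L = pv e f x0 L →
    (∀ t, x0 t = false → L.countP (Box.isT t) ≤ 1) →
    ∃ Act : T' → Set (Bool × Set Q),
      (∀ t, x0 t = false → (Act t).ncard ≤ 2 * (Lost e f).ncard) ∧
      ∀ x : T' → Bool, (∀ t, x0 t = true → x t = true) →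
        ∀ d y, Pt (pv e f x0 L) d y →
          (∀ t, x0 t = false → x t = true → (d, cl (pv e f x0 L) d y) ∉ Act t) →
          X (pv e f x0 L) (pv e f x L) d y y

/-- An automaton given by boxes. -/
structure BAut (α Q : Type) : Type where
  G : α → NB Q
  bl : NB Q
  br : NB Q
  start : Q
  fin : Q

/-- Acceptance: a head that enters from the left in the state `start` can leave to the right in
the state `fin`. -/
def BAut.Acc {α Q : Type} (M : BAut α Q) (w : List α) : Prop :=
  (M.bl * (w.map M.G).prod * M.br) (false, M.start) (false, M.fin)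

/-- Row U: from two-way automata to box automata. -/
def AutStmt : Prop :=
  ∀ (α : Type) (s : ℕ) (B : TwoNFA α (Fin s)), ∃ M : BAut α (Option (Fin s)),
    ∀ w, M.Acc w ↔ B.Accepts w

/-- Normal form with activity at most `a`. -/
def Norm {V Q : Type} (G : Box.Sym V → NB Q) (a : ℕ) : Prop :=
  G (Box.idSym V) * G (Box.idSym V) = G (Box.idSym V) ∧
  (∀ s, G (Box.idSym V) * G s = G s) ∧ (∀ s, G s * G (Box.idSym V) = G s) ∧
  ∃ Act : Bool × V → Set (Bool × Set Q), (∀ t, (Act t).ncard ≤ a) ∧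
    ∀ s : Box.Sym V, (∀ v, s.keep v = true) → ∀ d x, Pt (G (Box.idSym V)) d x →
      (∀ v, s.src v = true → (d, cl (G (Box.idSym V)) d x) ∉ Act (false, v)) →
      (∀ v, s.dst v = true → (d, cl (G (Box.idSym V)) d x) ∉ Act (true, v)) →
      X (G (Box.idSym V)) (G s) d x x

/-- Row S: one level of the recursion. -/
def StepStmt : Prop :=
  ∀ (V : Type) [Fintype V] (s0 f0 : V) (n : ℕ), 0 < n → ∀ (Q : Type) [Finite Q]
    (M : BAut (Box.Sym (Box.Ext V n)) Q),
    (∀ w, M.Acc w ↔ ¬ Box.RLang (Sum.inl s0 : Box.Ext V n) (Sum.inl f0) w) →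
    ∀ a, Norm M.G a → ∃ (M1 : BAut (Box.Sym V) Q) (a' : ℕ), Norm M1.G a' ∧ n * a' ≤ 8 * a ∧
      ∀ w, M1.Acc w ↔ ¬ Box.RLang s0 f0 w

/-- Row B: the bottom and the top of the recursion. -/
def BaseStmt : Prop :=
  ∀ (V : Type) (s0 f0 : V), s0 ≠ f0 → ∀ (Q : Type) [Finite Q] (M : BAut (Box.Sym V) Q),
    (∀ w, M.Acc w ↔ ¬ Box.RLang s0 f0 w) → ∀ a, Norm M.G a → 1 ≤ a

def TopStmt : Prop :=
  ∀ (V : Type) (s0 f0 : V) (Q : Type) [Finite Q] (M : BAut (Box.Sym V) Q),
    (∀ w, M.Acc w ↔ ¬ Box.RLang s0 f0 w) →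
    ∃ M1 : BAut (Box.Sym V) Q, Norm M1.G (2 * Nat.card Q) ∧
      ∀ w, M1.Acc w ↔ ¬ Box.RLang s0 f0 w

/-- Row F: the lower bound. -/
def FinalStmt : Prop :=
  ∀ n j : ℕ, 33 * j + 70 ≤ n →
    ∃ (α : Type) (_ : Finite α) (A : TwoNFA α (Fin n)), A.OneWay ∧
      ∀ (s : ℕ) (B : TwoNFA α (Fin s)), (∀ w, B.Accepts w ↔ ¬ A.Accepts w) → 2 ^ j ≤ s

end Vale.Agent.P343.H741
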