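import Vale.Agent.P343.H741.All
import Vale.Agent.P343.H744.Binary

/-!
The lower bounds for the complements over small alphabets and for one-way liveness.
-/

namespace Vale.Agent.P343.H741

/-- Every 2NFA for the words that are not live has exponentially many states. -/
theorem liveCompl : ∀ (h j s : ℕ) (B : TwoNFA (Fin h → Fin h → Bool) (Fin s)), 33 * j + 80 ≤ h →
    (∀ w, B.Accepts w ↔ ¬ H744.Live w) → 2 ^ j ≤ s :=
  H986.live_compl H69.aut (fun j h s0 f0 hne hh Q _ M hM =>
    H744.lin_LB stepAll baseAll topAll j (Fin h) s0 f0 hne (by rw [Fintype.card_fin]; exact hh)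
      Q M hM)

/-- The lower bound over each alphabet with at least two letters. -/
theorem nontrivial_compl (α : Type) [Nontrivial α] (n j : ℕ) (hn : 33 * j + 80 ≤ n) :
    ∃ A : TwoNFA α (Fin n), A.OneWay ∧ ∀ (s : ℕ) (B : TwoNFA α (Fin s)),
      (∀ w, B.Accepts w ↔ ¬ A.Accepts w) → 2 ^ j ≤ s :=
  H744.nontrivial_compl (H744.towerStmt stepAll baseAll) H69.aut α n j hn

end Vale.Agent.P343.H741
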