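import Vale.Agent.P343.H741.Iface

/-!
Row W: literal statement of the words part.
-/

namespace Vale.Agent.P343.H741

/-- The box of a word. -/
def wd {P Q : Type} (g : P → NB Q) (w : List P) : NB Q := (w.map g).prod

/-- Row W: the words of one level of the recursion, with few lost classes between `L0` and `L1`. -/
def WordsStmt : Prop :=
  ∀ (V : Type) [Fintype V] (n : ℕ), 0 < n → ∀ (Q : Type) [Finite Q]
    (G : Box.Sym (Box.Ext V n) → NB Q) (U : Set (Bool × Set Q)),
    G (Box.idSym _) * G (Box.idSym _) = G (Box.idSym _) →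
    (∀ s, G (Box.idSym _) * G s = G s) → (∀ s, G s * G (Box.idSym _) = G s) →
    (∀ c, c < n * n → ∀ d x, Pt (G (Box.idSym _)) d x → (d, cl (G (Box.idSym _)) d x) ∉ U →
      X (G (Box.idSym _)) (G (Box.edgeN V n c)) d x x) →
    ∃ (L0 L1 : List (Box.Sym (Box.Ext V n)))
      (C : List (Box.Sym (Box.Ext V n) ⊕ (Fin 3 × V))),
      wd G L0 * wd G L0 = wd G L0 ∧ wd G L1 * wd G L1 = wd G L1 ∧
      wd G L0 * wd G L1 = wd G L1 ∧ wd G L1 * wd G L0 = wd G L1 ∧
      n * n * (Lost (wd G L0) (wd G L1)).ncard ≤ 2 * U.ncard ∧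
      C ≠ [] ∧ (∀ t, C.countP (Box.isT t) ≤ 1) ∧
      ∀ (a : Box.Sym V) (A : Set V),
        Box.acts (Box.expand L0 L1 (Box.bits a) C) (Sum.inl '' A) = Sum.inl '' (a.act A)

end Vale.Agent.P343.H741
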